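import Vale.Agent.P267W33.Trans
import Vale.Agent.P267.H456.Gss
import Vale.Agent.P267.H205.OrdFinal

/-!
# P267: the global spherical shell conjecture

Betti numbers are ranks of singular homology groups and the self-intersection number of a smooth
rational curve is the degree of its normal bundle.
-/

open scoped Manifold ContDiff
open Vale.Agent.P267.Final Vale.Agent.P267W33

theorem Vale.Agent.Results.P267.ALiteral.result (X : Type) [TopologicalSpace X] [T2Space X]
    [CompactSpace X] [ConnectedSpace X] [ChartedSpace (ℂ × ℂ) X] [IsManifold 𝓘(ℂ, ℂ × ℂ) ω X] :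
    (betti X 1 = 1 → KodairaNegInf X → (¬ ∃ D : EffDiv X, IsRatCurve D (-1)) → 0 < betti X 2 →
      HasGSS X) ∧
    (betti X 1 < Cardinal.aleph0 ∧ betti X 2 < Cardinal.aleph0) ∧
    ∀ (D : EffDiv X) (φ : P1Map X), IsParam D φ → ∃! k : ℤ, IsRatCurve D k :=
  ⟨gss_literal (Vale.Agent.P267.Asm.gss_of_ord Vale.Agent.P267.H205.ordThm), betti_finite,
    fun _ _ h => existsUnique_ratCurve h⟩
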